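import Mathlib
import Vale.Agent.P262.Main
import Vale.Agent.P262.TestsFinal

namespace Vale.Agent.Results.P262.PrefixLogBound

open scoped RealInnerProductSpace

/-- Signed prefixes and Steinitz orderings in Euclidean space within `C √d log (d + 1)`,
uniformly in the number of vectors. -/
theorem result :
    ∃ C : ℝ, ∀ (d N : ℕ) (v : Fin N → EuclideanSpace ℝ (Fin d)), (∀ i, ‖v i‖ ≤ 1) →
      (∃ s : Fin N → ℝ, (∀ i, s i = 1 ∨ s i = -1) ∧ ∀ k : ℕ,
        ‖∑ i ∈ Finset.univ.filter (fun i : Fin N => i.val < k), s i • v i‖ ≤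
          C * Real.sqrt d * Real.log (d + 1)) ∧
      (∑ i, v i = 0 → ∃ π : Equiv.Perm (Fin N), ∀ k : ℕ,
        ‖∑ i ∈ Finset.univ.filter (fun i : Fin N => i.val < k), v (π i)‖ ≤
          C * Real.sqrt d * Real.log (d + 1)) :=
  Vale.Agent.P262.main_statement_of Vale.Agent.P262.testsExist

end Vale.Agent.Results.P262.PrefixLogBound
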