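import Mathlib
import Vale.Agent.P262.S2.Main

namespace Vale.Agent.Results.P262.SteinitzSqrt

/-- The Euclidean Steinitz conjecture: zero-sum families in the unit ball of Euclidean `d`-space can
be ordered with all partial sums of norm at most `C √d`. -/
theorem result :
    ∃ C : ℝ, ∀ (d N : ℕ) (v : Fin N → EuclideanSpace ℝ (Fin d)), (∀ i, ‖v i‖ ≤ 1) → ∑ i, v i = 0 →
      ∃ π : Equiv.Perm (Fin N), ∀ k : ℕ,
        ‖∑ i ∈ Finset.univ.filter (fun i : Fin N => i.val < k), v (π i)‖ ≤ C * Real.sqrt d :=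
  Vale.Agent.P262.S2.steinitzBound

end Vale.Agent.Results.P262.SteinitzSqrt
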